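import Vale.Agent.P038.H139.Basic

/-!
# P038 (H213): minimal pairs of families

For an oriented graph `D` let `A z v` mean `z = v` or `z → v`, let `cl D S` be the closed
out-neighbourhood and `cc D S = |cl D S| - |S|`.
-/

namespace Vale.Agent.P038.H213

open Finset Vale.Agent.P038.H139

universe u

set_option linter.unusedSectionVars false

variable {V : Type u} [Fintype V] [DecidableEq V]

/-- `z = v` or `z → v`. -/
def A (D : OGraph V) (z v : V) : Prop := z = v ∨ D.arc z v

theorem A_refl (D : OGraph V) (v : V) : A D v v := Or.inl rfl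

theorem mem_N {D : OGraph V} {S : Finset V} {x : V} : x ∈ cl D S ↔ ∃ y ∈ S, A D y x := by
  rw [mem_cl]
  constructor
  · rintro (h | ⟨y, hy, h⟩)
    · exact ⟨x, h, Or.inl rfl⟩
    · exact ⟨y, hy, Or.inr h⟩
  · rintro ⟨y, hy, h⟩
    rcases h with h | h
    · exact Or.inl (h ▸ hy)
    · exact Or.inr ⟨y, hy, h⟩

theorem sub_N (D : OGraph V) (S : Finset V) : S ⊆ cl D S := fun x hx => mem_N.2 ⟨x, hx, A_refl D x⟩

theorem N_mono {D : OGraph V} {S T : Finset V} (h : S ⊆ T) : cl D S ⊆ cl D T := by
  intro x hx
  obtain ⟨y, hy, h1⟩ := mem_N.1 hx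
  exact mem_N.2 ⟨y, h hy, h1⟩

/-- The cost `|N[S]| - |S|`. -/
noncomputable def cc (D : OGraph V) (S : Finset V) : ℤ := ((cl D S).card : ℤ) - S.card

theorem N_union (D : OGraph V) (S T : Finset V) :
    cl D (S ∪ T) = cl D S ∪ cl D T := by
  ext x
  simp only [mem_N, Finset.mem_union]
  constructor
  · rintro ⟨y, hy | hy, h⟩
    · exact Or.inl ⟨y, hy, h⟩
    · exact Or.inr ⟨y, hy, h⟩
  · rintro (⟨y, hy, h⟩ | ⟨y, hy, h⟩)
    · exact ⟨y, Or.inl hy, h⟩
    · exact ⟨y, Or.inr hy, h⟩

theorem N_inter (D : OGraph V) (S T : Finset V) :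
    cl D (S ∩ T) ⊆ cl D S ∩ cl D T := by
  intro x hx
  obtain ⟨y, hy, h⟩ := mem_N.1 hx
  rw [Finset.mem_inter] at hy
  exact Finset.mem_inter.2 ⟨mem_N.2 ⟨y, hy.1, h⟩, mem_N.2 ⟨y, hy.2, h⟩⟩

theorem cc_submod (D : OGraph V) (S T : Finset V) :
    cc D (S ∪ T) + cc D (S ∩ T) ≤ cc D S + cc D T := by
  have h1 := Finset.card_union_add_card_inter S T
  have h2 := Finset.card_union_add_card_inter (cl D S) (cl D T)
  have h3 := Finset.card_le_card (N_inter D S T)
  rw [← N_union] at h2
  unfold cc
  omega

open Classical in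
/-- The intersection of the rows over the closed in-neighbourhood. -/
noncomputable def er (D : OGraph V) (B : V → Finset V) (v : V) : Finset V :=
  Finset.univ.filter fun x => ∀ z, A D z v → x ∈ B z

theorem mem_er {D : OGraph V} {B : V → Finset V} {v x : V} :
    x ∈ er D B v ↔ ∀ z, A D z v → x ∈ B z := by
  simp [er]

theorem er_sub {D : OGraph V} {B : V → Finset V} {z v : V} (h : A D z v) : er D B v ⊆ B z :=
  fun _ hx => mem_er.1 hx z h

theorem er_mono {D : OGraph V} {B H : V → Finset V} (h : ∀ a, B a ⊆ H a) (v : V) :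
    er D B v ⊆ er D H v :=
  fun _ hx => mem_er.2 fun z hz => h z (mem_er.1 hx z hz)

/-- Feasible pairs of families (outer problem). -/
structure Feas (D : OGraph V) (B H : V → Finset V) : Prop where
  nb : ∀ a x, A D a x → x ∈ B a
  sub : ∀ a, B a ⊆ H a
  anti : ∀ a x, D.arc x a → x ∉ H a

/-- The value of a feasible pair. -/
noncomputable def EE (D : OGraph V) (B H : V → Finset V) : ℤ :=
  (∑ z, cc D (B z)) + (∑ z, ((H z).card : ℤ)) - ∑ v, ((er D H v).card : ℤ)

/-! ### Rows -/

theorem row {D : OGraph V} {B H : V → Finset V} (hf : Feas D B H)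
    (hmin : ∀ B' H', Feas D B' H' → EE D B H ≤ EE D B' H') (z : V) (U : Finset V)
    (h1 : B z ⊆ U) (h2 : U ⊆ H z) : cc D (B z) ≤ cc D U := by
  have hf2 : Feas D (Function.update B z U) H := by
    refine ⟨?_, ?_, hf.anti⟩
    · intro a x hx
      by_cases h : a = z
      · subst h
        rw [Function.update_self]
        exact h1 (hf.nb a x hx)
      · rw [Function.update_of_ne h]
        exact hf.nb a x hx
    · intro a
      by_cases h : a = z
      · subst h
        rw [Function.update_self]
        exact h2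
      · rw [Function.update_of_ne h]
        exact hf.sub a
  have h3 := hmin _ _ hf2
  unfold EE at h3
  have h4 : ∑ a, cc D (Function.update B z U a) = (∑ a, cc D (B a)) - cc D (B z) + cc D U := by
    rw [← Finset.add_sum_erase _ _ (Finset.mem_univ z),
      ← Finset.add_sum_erase _ (fun a => cc D (B a)) (Finset.mem_univ z)]
    rw [Function.update_self]
    have : ∑ x ∈ Finset.univ.erase z, cc D (Function.update B z U x)
        = ∑ x ∈ Finset.univ.erase z, cc D (B x) := by
      apply Finset.sum_congr rfl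
      intro x hx
      rw [Function.update_of_ne (Finset.ne_of_mem_erase hx)]
    rw [this]
    ring
  rw [h4] at h3
  linarith

/-! ### Columns -/

theorem col {D : OGraph V} {B H : V → Finset V} (hf : Feas D B H)
    (hmin : ∀ B' H', Feas D B' H' → EE D B H ≤ EE D B' H') (x : V) (T : Finset V)
    (hT : ∀ z ∈ T, x ∈ H z ∧ x ∉ B z) (Q : Finset V)
    (hQ : ∀ v, v ∈ Q ↔ x ∈ er D H v ∧ ∃ z ∈ T, A D z v) : T.card ≤ Q.card := by
  set H2 : V → Finset V := fun z => if z ∈ T then (H z).erase x else H z with hH2
  have hsub2 : ∀ z, H2 z ⊆ H z := by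
    intro z
    simp only [hH2]
    split_ifs
    · exact Finset.erase_subset _ _
    · exact fun _ h => h
  have hf2 : Feas D B H2 := by
    refine ⟨hf.nb, ?_, fun a y hy h => hf.anti a y hy (hsub2 a h)⟩
    intro a y hy
    simp only [hH2]
    split_ifs with h
    · refine Finset.mem_erase.2 ⟨?_, hf.sub a hy⟩
      rintro rfl
      exact (hT a h).2 hy
    · exact hf.sub a hy
  have h3 := hmin _ _ hf2
  unfold EE at h3
  have h4 : ∑ z, ((H2 z).card : ℤ) = (∑ z, ((H z).card : ℤ)) - T.card := by
    have e1 : ∀ z, ((H2 z).card : ℤ) = ((H z).card : ℤ) - if z ∈ T then 1 else 0 := by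
      intro z
      simp only [hH2]
      split_ifs with h
      · rw [Finset.card_erase_of_mem (hT z h).1]
        have : 0 < (H z).card := Finset.card_pos.2 ⟨x, (hT z h).1⟩
        omega
      · simp
    rw [Finset.sum_congr rfl (fun z _ => e1 z), Finset.sum_sub_distrib]
    congr 1
    rw [Finset.sum_ite_mem, Finset.univ_inter, Finset.sum_const]
    simp
  have h5 : ∑ v, ((er D H2 v).card : ℤ) = (∑ v, ((er D H v).card : ℤ)) - Q.card := by
    have e1 : ∀ v, ((er D H2 v).card : ℤ) = ((er D H v).card : ℤ) - if v ∈ Q then 1 else 0 := by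
      intro v
      split_ifs with h
      · obtain ⟨hx, z, hz, hzv⟩ := (hQ v).1 h
        have e2 : er D H2 v = (er D H v).erase x := by
          ext y
          rw [Finset.mem_erase, mem_er, mem_er]
          constructor
          · intro hy
            refine ⟨?_, fun s hs => hsub2 s (hy s hs)⟩
            rintro rfl
            have h6 := hy z hzv
            simp only [hH2, if_pos hz] at h6
            exact absurd rfl (Finset.ne_of_mem_erase h6)
          · rintro ⟨hy1, hy2⟩ s hs
            simp only [hH2]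
            split_ifs
            · exact Finset.mem_erase.2 ⟨hy1, hy2 s hs⟩
            · exact hy2 s hs
        rw [e2, Finset.card_erase_of_mem hx]
        have : 0 < (er D H v).card := Finset.card_pos.2 ⟨x, hx⟩
        omega
      · have e2 : er D H2 v = er D H v := by
          ext y
          rw [mem_er, mem_er]
          constructor
          · intro hy s hs
            exact hsub2 s (hy s hs)
          · intro hy s hs
            simp only [hH2]
            split_ifs with hs2
            · refine Finset.mem_erase.2 ⟨?_, hy s hs⟩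
              rintro rfl
              exact h ((hQ v).2 ⟨mem_er.2 hy, s, hs2, hs⟩)
            · exact hy s hs
        rw [e2]
        simp
    rw [Finset.sum_congr rfl (fun v _ => e1 v), Finset.sum_sub_distrib]
    congr 1
    rw [Finset.sum_ite_mem, Finset.univ_inter, Finset.sum_const]
    simp
  rw [h4, h5] at h3
  have : (T.card : ℤ) ≤ Q.card := by linarith
  exact_mod_cast this

open Classical in
/-- Hall's theorem in a column. -/
theorem hall {D : OGraph V} {B H : V → Finset V} (hf : Feas D B H)
    (hmin : ∀ B' H', Feas D B' H' → EE D B H ≤ EE D B' H') (x : V) :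
    ∃ φ : {z // x ∈ H z ∧ x ∉ B z} → V, Function.Injective φ ∧
      ∀ z, x ∈ er D H (φ z) ∧ A D z.1 (φ z) := by
  set t : {z // x ∈ H z ∧ x ∉ B z} → Finset V :=
    fun z => Finset.univ.filter fun v => x ∈ er D H v ∧ A D z.1 v with ht
  have h1 : ∀ s : Finset {z // x ∈ H z ∧ x ∉ B z}, s.card ≤ (s.biUnion t).card := by
    intro s
    have h2 := col hf hmin x (s.map (Function.Embedding.subtype _)) ?_ (s.biUnion t) ?_
    · rwa [Finset.card_map] at h2
    · intro z hz
      obtain ⟨z', hz', rfl⟩ := Finset.mem_map.1 hz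
      exact z'.2
    · intro v
      rw [Finset.mem_biUnion]
      constructor
      · rintro ⟨z, hz, hv⟩
        simp only [ht, Finset.mem_filter, Finset.mem_univ, true_and] at hv
        exact ⟨hv.1, z.1, Finset.mem_map.2 ⟨z, hz, rfl⟩, hv.2⟩
      · rintro ⟨hx, z, hz, hzv⟩
        obtain ⟨z', hz', rfl⟩ := Finset.mem_map.1 hz
        refine ⟨z', hz', ?_⟩
        simp only [ht, Finset.mem_filter, Finset.mem_univ, true_and]
        exact ⟨hx, hzv⟩
  obtain ⟨φ, hφ, hφt⟩ := (Finset.all_card_le_biUnion_card_iff_exists_injective t).1 h1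
  refine ⟨φ, hφ, fun z => ?_⟩
  have := hφt z
  simp only [ht, Finset.mem_filter, Finset.mem_univ, true_and] at this
  exact this

/-! ### The eroded rows -/

theorem row' {D : OGraph V} {B H : V → Finset V} (hf : Feas D B H)
    (hmin : ∀ B' H', Feas D B' H' → EE D B H ≤ EE D B' H') (v : V) (U : Finset V)
    (h1 : er D B v ⊆ U) (h2 : U ⊆ er D H v) : cc D (er D B v) ≤ cc D U := by
  classical
  have key : ∀ S : Finset V, (∀ z ∈ S, A D z v) →
      cc D (U.filter fun x => ∀ z ∈ S, x ∈ B z) ≤ cc D U := by
    intro S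
    induction S using Finset.induction_on with
    | empty =>
      intro _
      simp
    | insert z S hz ih =>
      intro hS
      have ih' := ih fun y hy => hS y (Finset.mem_insert_of_mem hy)
      set W := U.filter fun x => ∀ z ∈ S, x ∈ B z with hW
      have e1 : (U.filter fun x => ∀ y ∈ insert z S, x ∈ B y) = W ∩ B z := by
        ext x
        simp only [hW, Finset.mem_filter, Finset.mem_inter, Finset.mem_insert]
        constructor
        · rintro ⟨hx, hy⟩
          exact ⟨⟨hx, fun y hy' => hy y (Or.inr hy')⟩, hy z (Or.inl rfl)⟩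
        · rintro ⟨⟨hx, hy⟩, hz'⟩
          refine ⟨hx, fun y hy' => ?_⟩
          rcases hy' with rfl | hy'
          · exact hz'
          · exact hy y hy'
      rw [e1]
      have h3 := cc_submod D W (B z)
      have h4 := row hf hmin z (W ∪ B z) Finset.subset_union_right (by
        apply Finset.union_subset _ (hf.sub z)
        intro x hx
        exact er_sub (hS z (Finset.mem_insert_self z S)) (h2 (Finset.mem_filter.1 hx).1))
      linarith
  have h5 := key (Finset.univ.filter fun z => A D z v) (fun z hz => (Finset.mem_filter.1 hz).2)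
  have e2 : (U.filter fun x => ∀ z ∈ (Finset.univ.filter fun z => A D z v), x ∈ B z)
      = er D B v := by
    ext x
    simp only [Finset.mem_filter, Finset.mem_univ, true_and]
    constructor
    · rintro ⟨_, h⟩
      exact mem_er.2 h
    · intro h
      exact ⟨h1 h, mem_er.1 h⟩
  rwa [e2] at h5

/-! ### Increments -/

/-- Admissible sets. -/
structure Adm (B H P U : Finset V) : Prop where
  low : B ⊆ U
  mid : ∀ x ∈ H, x ∈ P → x ∈ U
  up : U ⊆ H

theorem exists_adm (D : OGraph V) (B H P : Finset V) (h : B ⊆ H) :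
    ∃ U, Adm B H P U ∧ ∀ U', Adm B H P U' → cc D U ≤ cc D U' := by
  classical
  obtain ⟨U, hU, hmin⟩ := Finset.exists_min_image
    (Finset.univ.filter fun U : Finset V => Adm B H P U) (cc D)
    ⟨H, Finset.mem_filter.2 ⟨Finset.mem_univ _, h, fun x hx _ => hx, fun _ hx => hx⟩⟩
  exact ⟨U, (Finset.mem_filter.1 hU).2,
    fun U' hU' => hmin U' (Finset.mem_filter.2 ⟨Finset.mem_univ _, hU'⟩)⟩

open Classical in
/-- An optimal admissible set. -/
noncomputable def ks (D : OGraph V) (B H P : Finset V) : Finset V :=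
  if h : B ⊆ H then Classical.choose (exists_adm D B H P h) else H

/-- The optimal cost. -/
noncomputable def kk (D : OGraph V) (B H P : Finset V) : ℤ := cc D (ks D B H P)

theorem ks_adm {D : OGraph V} {B H P : Finset V} (h : B ⊆ H) : Adm B H P (ks D B H P) := by
  unfold ks
  rw [dif_pos h]
  exact (Classical.choose_spec (exists_adm D B H P h)).1

theorem kk_le {D : OGraph V} {B H P U : Finset V} (h : B ⊆ H) (hU : Adm B H P U) :
    kk D B H P ≤ cc D U := by
  unfold kk ks
  rw [dif_pos h]
  exact (Classical.choose_spec (exists_adm D B H P h)).2 U hU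

theorem kk_mono {D : OGraph V} {B H P : Finset V} (h : B ⊆ H) (x : V) :
    kk D B H P ≤ kk D B H (insert x P) := by
  have h1 := ks_adm (D := D) (P := insert x P) h
  exact kk_le h ⟨h1.low, fun y hy hyP => h1.mid y hy (Finset.mem_insert_of_mem hyP), h1.up⟩

theorem kk_zero {D : OGraph V} {B H P : Finset V} (h : B ⊆ H) (x : V) (hx : ¬ (x ∈ H ∧ x ∉ B)) :
    kk D B H (insert x P) ≤ kk D B H P := by
  have h1 := ks_adm (D := D) (P := P) h
  refine kk_le h ⟨h1.low, fun y hy hyP => ?_, h1.up⟩
  rcases Finset.mem_insert.1 hyP with rfl | hyP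
  · by_cases hyB : y ∈ B
    · exact h1.low hyB
    · exact absurd ⟨hy, hyB⟩ hx
  · exact h1.mid y hy hyP

theorem kk_key {D : OGraph V} {B H B' H' P : Finset V} (h : B ⊆ H) (h' : B' ⊆ H')
    (hB : B' ⊆ B) (hH : H' ⊆ H) (x : V) (hx : x ∈ H') :
    kk D B H (insert x P) - kk D B H P ≤ kk D B' H' (insert x P) - kk D B' H' P := by
  have h1 := ks_adm (D := D) (P := P) h
  have h2 := ks_adm (D := D) (P := insert x P) h'
  set U := ks D B H P with hU
  set U' := ks D B' H' (insert x P) with hU'
  have h3 : kk D B H (insert x P) ≤ cc D (U ∪ U') := by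
    refine kk_le h ⟨fun y hy => Finset.mem_union_left _ (h1.low hy), fun y hy hyP => ?_,
      Finset.union_subset h1.up (h2.up.trans hH)⟩
    rcases Finset.mem_insert.1 hyP with rfl | hyP
    · exact Finset.mem_union_right _ (h2.mid y hx (Finset.mem_insert_self _ _))
    · exact Finset.mem_union_left _ (h1.mid y hy hyP)
  have h4 : kk D B' H' P ≤ cc D (U ∩ U') := by
    refine kk_le h' ⟨fun y hy => Finset.mem_inter.2 ⟨h1.low (hB hy), h2.low hy⟩,
      fun y hy hyP => Finset.mem_inter.2 ⟨h1.mid y (hH hy) hyP,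
        h2.mid y hy (Finset.mem_insert_of_mem hyP)⟩, fun y hy => h2.up (Finset.mem_inter.1 hy).2⟩
  have h5 := cc_submod D U U'
  have h6 : kk D B H P = cc D U := rfl
  have h7 : kk D B' H' (insert x P) = cc D U' := rfl
  linarith

/-- The comparison of the increments, for a set `P` of columns. -/
theorem incr {D : OGraph V} {B H : V → Finset V} (hf : Feas D B H)
    (hmin : ∀ B' H', Feas D B' H' → EE D B H ≤ EE D B' H') (P : Finset V) :
    ∑ z, (kk D (B z) (H z) P - cc D (B z))
      ≤ ∑ v, (kk D (er D B v) (er D H v) P - cc D (er D B v)) := by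
  classical
  induction P using Finset.induction_on with
  | empty =>
    have h1 : ∑ z, (kk D (B z) (H z) ∅ - cc D (B z)) ≤ 0 := by
      apply Finset.sum_nonpos
      intro z _
      have : kk D (B z) (H z) ∅ ≤ cc D (B z) :=
        kk_le (hf.sub z) ⟨fun _ h => h, fun y _ hy => absurd hy (Finset.notMem_empty y), hf.sub z⟩
      linarith
    have h2 : 0 ≤ ∑ v, (kk D (er D B v) (er D H v) ∅ - cc D (er D B v)) := by
      apply Finset.sum_nonneg
      intro v _
      have h3 := ks_adm (D := D) (P := ∅) (er_mono (D := D) hf.sub v)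
      have h4 := row' hf hmin v _ h3.low h3.up
      have h5 : kk D (er D B v) (er D H v) ∅ = cc D (ks D (er D B v) (er D H v) ∅) := rfl
      linarith
    linarith
  | insert x P hxP ih =>
    obtain ⟨φ, hφ, hφt⟩ := hall hf hmin x
    set b : V → ℤ := fun z => kk D (B z) (H z) (insert x P) - kk D (B z) (H z) P with hb
    set b' : V → ℤ := fun v => kk D (er D B v) (er D H v) (insert x P)
      - kk D (er D B v) (er D H v) P with hb'
    have hb'0 : ∀ v, 0 ≤ b' v := fun v => by
      have := kk_mono (D := D) (P := P) (er_mono (D := D) hf.sub v) x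
      simp only [hb']
      linarith
    have h1 : ∑ z, b z ≤ ∑ z ∈ Finset.univ.filter (fun z => x ∈ H z ∧ x ∉ B z), b z := by
      rw [← Finset.sum_filter_add_sum_filter_not Finset.univ (fun z => x ∈ H z ∧ x ∉ B z)]
      have : ∑ z ∈ Finset.univ.filter (fun z => ¬ (x ∈ H z ∧ x ∉ B z)), b z ≤ 0 := by
        apply Finset.sum_nonpos
        intro z hz
        have := kk_zero (D := D) (P := P) (hf.sub z) x (Finset.mem_filter.1 hz).2
        simp only [hb]
        linarith
      linarith
    have h2 : ∑ z ∈ Finset.univ.filter (fun z => x ∈ H z ∧ x ∉ B z), b z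
        = ∑ z : {z // x ∈ H z ∧ x ∉ B z}, b z.1 := by
      rw [← Finset.sum_subtype_eq_sum_filter]
      apply Finset.sum_congr _ (fun _ _ => rfl)
      ext z
      simp
    have h3 : ∑ z : {z // x ∈ H z ∧ x ∉ B z}, b z.1 ≤ ∑ z : {z // x ∈ H z ∧ x ∉ B z}, b' (φ z) := by
      apply Finset.sum_le_sum
      intro z _
      have hA := (hφt z).2
      exact kk_key (hf.sub z.1) (er_mono hf.sub (φ z)) (er_sub hA) (er_sub hA) x (hφt z).1
    have h4 : ∑ z : {z // x ∈ H z ∧ x ∉ B z}, b' (φ z) ≤ ∑ v, b' v := by
      have e1 : ∑ z : {z // x ∈ H z ∧ x ∉ B z}, b' (φ z)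
          = ∑ v ∈ Finset.univ.map ⟨φ, hφ⟩, b' v := by
        rw [Finset.sum_map]
        rfl
      rw [e1]
      exact Finset.sum_le_sum_of_subset_of_nonneg (Finset.subset_univ _) (fun v _ _ => hb'0 v)
    have e1 : ∑ z, (kk D (B z) (H z) (insert x P) - cc D (B z))
        = ∑ z, (kk D (B z) (H z) P - cc D (B z)) + ∑ z, b z := by
      rw [← Finset.sum_add_distrib]
      apply Finset.sum_congr rfl
      intro z _
      simp only [hb]
      ring
    have e2 : ∑ v, (kk D (er D B v) (er D H v) (insert x P) - cc D (er D B v))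
        = ∑ v, (kk D (er D B v) (er D H v) P - cc D (er D B v)) + ∑ v, b' v := by
      rw [← Finset.sum_add_distrib]
      apply Finset.sum_congr rfl
      intro v _
      simp only [hb']
      ring
    rw [e1, e2]
    linarith

/-- The comparison (R). -/
theorem compR {D : OGraph V} {B H : V → Finset V} (hf : Feas D B H)
    (hmin : ∀ B' H', Feas D B' H' → EE D B H ≤ EE D B' H') :
    ∑ z, (cc D (H z) - cc D (B z)) ≤ ∑ v, (cc D (er D H v) - cc D (er D B v)) := by
  have h := incr hf hmin Finset.univ
  have e : ∀ B H : Finset V, B ⊆ H → kk D B H Finset.univ = cc D H := by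
    intro B H hBH
    have h1 := ks_adm (D := D) (P := Finset.univ) hBH
    have h2 : ks D B H Finset.univ = H :=
      Finset.Subset.antisymm h1.up (fun y hy => h1.mid y hy (Finset.mem_univ y))
    unfold kk
    rw [h2]
  have e1 : ∑ z, (kk D (B z) (H z) Finset.univ - cc D (B z)) = ∑ z, (cc D (H z) - cc D (B z)) :=
    Finset.sum_congr rfl (fun z _ => by rw [e _ _ (hf.sub z)])
  have e2 : ∑ v, (kk D (er D B v) (er D H v) Finset.univ - cc D (er D B v))
      = ∑ v, (cc D (er D H v) - cc D (er D B v)) :=
    Finset.sum_congr rfl (fun v _ => by rw [e _ _ (er_mono hf.sub v)])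
  rw [e1, e2] at h
  exact h

end Vale.Agent.P038.H213
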