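import Vale.Agent.P038.S450.G
import Vale.Agent.P038.H213.Core

/-!
# P038 (H213): Seymour's second neighbourhood conjecture
-/

namespace Vale.Agent.P038.H213

open Finset Vale.Agent.P038.H139

universe u

set_option linter.unusedSectionVars false

variable {V : Type u} [Fintype V] [DecidableEq V]

/-- Orthogonal families (inner problem). -/
structure Orth (D : OGraph V) (X Z : V → Finset V) : Prop where
  selfX : ∀ a, a ∈ X a
  selfZ : ∀ a, a ∈ Z a
  orth : ∀ a x, x ∈ cl D (X a) → a ∈ cl D (Z x) → a = x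

/-- The value of an orthogonal pair. -/
noncomputable def FF (D : OGraph V) (X Z : V → Finset V) : ℤ :=
  (∑ a, cc D (X a)) + ∑ a, cc D (Z a)

theorem cc_eq_sdiff {D : OGraph V} (S : Finset V) : cc D S = ((cl D S \ S).card : ℤ) := by
  have h := Finset.card_sdiff_add_card_eq_card (sub_N D S)
  unfold cc
  omega

/-- Double counting. -/
theorem sum_card_le_sum_card {f g : V → Finset V} (h : ∀ u a, a ∈ f u → u ∈ g a) :
    ∑ u, ((f u).card : ℤ) ≤ ∑ a, ((g a).card : ℤ) := by
  classical
  have h1 : ∀ u, ((f u).card : ℤ) = ∑ a, if a ∈ f u then (1 : ℤ) else 0 := by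
    intro u
    rw [Finset.sum_ite_mem, Finset.univ_inter, Finset.sum_const]
    simp
  have h2 : ∀ a, ((g a).card : ℤ) = ∑ u, if u ∈ g a then (1 : ℤ) else 0 := by
    intro a
    rw [Finset.sum_ite_mem, Finset.univ_inter, Finset.sum_const]
    simp
  rw [Finset.sum_congr rfl (fun u _ => h1 u), Finset.sum_congr rfl (fun a _ => h2 a),
    Finset.sum_comm]
  apply Finset.sum_le_sum
  intro a _
  apply Finset.sum_le_sum
  intro u _
  split_ifs with h3 h4 h4
  · exact le_refl _
  · exact absurd (h u a h3) h4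
  · norm_num
  · exact le_refl _

/-- From an optimal outer pair to an orthogonal pair. -/
theorem mf {D : OGraph V} {B H : V → Finset V} (hf : Feas D B H)
    (hmin : ∀ B' H', Feas D B' H' → EE D B H ≤ EE D B' H') :
    ∃ X Z, Orth D X Z ∧ FF D X Z ≤ EE D B H := by
  classical
  set Z1 : V → Finset V := fun u =>
    Finset.univ.filter fun a => ∀ y, A D a y → y = u ∨ u ∉ cl D (er D H y) with hZ1
  have mZ : ∀ u a, a ∈ Z1 u ↔ ∀ y, A D a y → y = u ∨ u ∉ cl D (er D H y) := by
    intro u a
    simp [hZ1]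
  have hself : ∀ u, u ∈ Z1 u := by
    intro u
    rw [mZ]
    intro y hy
    by_cases hyu : y = u
    · exact Or.inl hyu
    · right
      intro hu
      have huy : D.arc u y := by
        rcases hy with h | h
        · exact absurd h.symm hyu
        · exact h
      obtain ⟨s, hs, hsu⟩ := mem_N.1 hu
      rw [mem_er] at hs
      rcases hsu with rfl | hsu
      · exact hf.anti y s huy (hs y (A_refl D y))
      · exact hf.anti u s hsu (hs u (Or.inr huy))
  refine ⟨er D B, Z1, ⟨?_, hself, ?_⟩, ?_⟩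
  · intro a
    rw [mem_er]
    intro z hz
    exact hf.nb z a hz
  · intro a x hx ha
    obtain ⟨b, hb, hba⟩ := mem_N.1 ha
    rcases (mZ x b).1 hb a hba with h | h
    · exact h
    · exact absurd (N_mono (er_mono hf.sub a) hx) h
  · have hR := compR hf hmin
    have h1 : ∑ u, cc D (Z1 u) ≤ ∑ a, (((cl D (H a)).card : ℤ) - (cl D (er D H a)).card) := by
      have h2 : ∑ u, ((cl D (Z1 u) \ Z1 u).card : ℤ)
          ≤ ∑ a, ((cl D (H a) \ cl D (er D H a)).card : ℤ) := by
        apply sum_card_le_sum_card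
        intro u a ha
        rw [Finset.mem_sdiff] at ha ⊢
        obtain ⟨b, hb, hba⟩ := mem_N.1 ha.1
        have hau : a ≠ u := by
          rintro rfl
          exact ha.2 (hself a)
        have hu : u ∉ cl D (er D H a) := by
          rcases (mZ u b).1 hb a hba with h | h
          · exact absurd h hau
          · exact h
        refine ⟨?_, hu⟩
        have h3 := ha.2
        rw [mZ] at h3
        push Not at h3
        obtain ⟨y, hy, _, huy⟩ := h3
        exact N_mono (er_sub hy) huy
      calc ∑ u, cc D (Z1 u) = ∑ u, ((cl D (Z1 u) \ Z1 u).card : ℤ) :=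
            Finset.sum_congr rfl (fun u _ => cc_eq_sdiff _)
        _ ≤ ∑ a, ((cl D (H a) \ cl D (er D H a)).card : ℤ) := h2
        _ = ∑ a, (((cl D (H a)).card : ℤ) - (cl D (er D H a)).card) := by
            apply Finset.sum_congr rfl
            intro a _
            have h4 := Finset.card_sdiff_add_card_eq_card
              (N_mono (D := D) (er_sub (B := H) (A_refl D a)))
            omega
    unfold FF EE
    rw [Finset.sum_sub_distrib, Finset.sum_sub_distrib] at hR
    rw [Finset.sum_sub_distrib] at h1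
    have e1 : ∑ a, cc D (H a) = ∑ a, ((cl D (H a)).card : ℤ) - ∑ a, ((H a).card : ℤ) := by
      rw [← Finset.sum_sub_distrib]
      rfl
    have e2 : ∑ a, cc D (er D H a)
        = ∑ a, ((cl D (er D H a)).card : ℤ) - ∑ a, ((er D H a).card : ℤ) := by
      rw [← Finset.sum_sub_distrib]
      rfl
    linarith

/-- From an orthogonal pair to an outer pair. -/
theorem outer {D : OGraph V} {X Z : V → Finset V} (ho : Orth D X Z) :
    ∃ B H, Feas D B H ∧ EE D B H ≤ (∑ a, cc D (cl D (X a))) + ∑ a, cc D (cl D (Z a)) := by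
  classical
  set H : V → Finset V := fun a => Finset.univ.filter fun x => x = a ∨ a ∉ cl D (Z x) with hH
  have mH : ∀ a x, x ∈ H a ↔ x = a ∨ a ∉ cl D (Z x) := by
    intro a x
    simp [hH]
  have hf : Feas D (fun a => cl D (X a)) H := by
    refine ⟨?_, ?_, ?_⟩
    · intro a x hx
      exact mem_N.2 ⟨a, ho.selfX a, hx⟩
    · intro a x hx
      rw [mH]
      by_cases h : a ∈ cl D (Z x)
      · exact Or.inl (ho.orth a x hx h).symm
      · exact Or.inr h
    · intro a x hx h
      rw [mH] at h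
      rcases h with rfl | h
      · exact D.loopless _ hx
      · exact h (mem_N.2 ⟨x, ho.selfZ x, Or.inr hx⟩)
  refine ⟨fun a => cl D (X a), H, hf, ?_⟩
  have h1 : ∑ v, ((H v \ er D H v).card : ℤ) ≤ ∑ u, ((cl D (cl D (Z u)) \ cl D (Z u)).card : ℤ) := by
    apply sum_card_le_sum_card
    intro v u hu
    rw [Finset.mem_sdiff] at hu ⊢
    obtain ⟨hu1, hu2⟩ := hu
    rw [mem_er] at hu2
    push Not at hu2
    obtain ⟨z, hz, huz⟩ := hu2
    rw [mH] at huz
    push Not at huz
    refine ⟨mem_N.2 ⟨z, huz.2, hz⟩, ?_⟩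
    intro hv
    rw [mH] at hu1
    rcases hu1 with rfl | hu1
    · exact huz.1 (ho.orth z u (mem_N.2 ⟨z, ho.selfX z, hz⟩) huz.2).symm
    · exact hu1 hv
  have e1 : ∑ v, ((H v \ er D H v).card : ℤ)
      = ∑ v, ((H v).card : ℤ) - ∑ v, ((er D H v).card : ℤ) := by
    rw [← Finset.sum_sub_distrib]
    apply Finset.sum_congr rfl
    intro v _
    have h4 := Finset.card_sdiff_add_card_eq_card (er_sub (B := H) (A_refl D v))
    omega
  have e2 : ∑ u, ((cl D (cl D (Z u)) \ cl D (Z u)).card : ℤ) = ∑ u, cc D (cl D (Z u)) :=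
    Finset.sum_congr rfl (fun u _ => (cc_eq_sdiff _).symm)
  unfold EE
  rw [e1, e2] at h1
  linarith

theorem exists_orth (D : OGraph V) :
    ∃ X Z, Orth D X Z ∧ ∀ X' Z', Orth D X' Z' → FF D X Z ≤ FF D X' Z' := by
  classical
  have h0 : Orth D (fun a => {a}) (fun a => {a}) := by
    refine ⟨fun a => Finset.mem_singleton_self a, fun a => Finset.mem_singleton_self a, ?_⟩
    intro a x hx ha
    obtain ⟨y, hy, h1⟩ := mem_N.1 hx
    obtain ⟨z, hz, h2⟩ := mem_N.1 ha
    rw [Finset.mem_singleton] at hy hz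
    subst hy hz
    rcases h1 with h1 | h1
    · exact h1
    · rcases h2 with h2 | h2
      · exact h2.symm
      · exact absurd h2 (D.asymm _ _ h1)
  obtain ⟨p, hp, hmin⟩ := Finset.exists_min_image
    (Finset.univ.filter fun p : (V → Finset V) × (V → Finset V) => Orth D p.1 p.2)
    (fun p => FF D p.1 p.2) ⟨(fun a => {a}, fun a => {a}), by simpa using h0⟩
  exact ⟨p.1, p.2, (Finset.mem_filter.1 hp).2,
    fun X' Z' h => hmin (X', Z') (Finset.mem_filter.2 ⟨Finset.mem_univ _, h⟩)⟩

theorem exists_feas {D : OGraph V} {B H : V → Finset V} (hf : Feas D B H) :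
    ∃ B₁ H₁, Feas D B₁ H₁ ∧ ∀ B' H', Feas D B' H' → EE D B₁ H₁ ≤ EE D B' H' := by
  classical
  obtain ⟨p, hp, hmin⟩ := Finset.exists_min_image
    (Finset.univ.filter fun p : (V → Finset V) × (V → Finset V) => Feas D p.1 p.2)
    (fun p => EE D p.1 p.2) ⟨(B, H), by simpa using hf⟩
  exact ⟨p.1, p.2, (Finset.mem_filter.1 hp).2,
    fun X' Z' h => hmin (X', Z') (Finset.mem_filter.2 ⟨Finset.mem_univ _, h⟩)⟩

/-- If expansion never increases the cost then there are orthogonal families of closed sets. -/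
theorem closed_of_G {D : OGraph V}
    (hG : ∀ X : Finset V, cl D X ≠ X → cc D (cl D X) < cc D X) :
    ∃ X Z, Orth D X Z ∧ (∀ a, cl D (X a) = X a) ∧ ∀ a, cl D (Z a) = Z a := by
  classical
  have hG' : ∀ X : Finset V, cc D (cl D X) ≤ cc D X := by
    intro X
    by_cases h : cl D X = X
    · rw [h]
    · exact (hG X h).le
  obtain ⟨X, Z, ho, hmin⟩ := exists_orth D
  obtain ⟨B, H, hf, hle⟩ := outer ho
  obtain ⟨B1, H1, hf1, hmin1⟩ := exists_feas hf
  obtain ⟨X', Z', ho', hle'⟩ := mf hf1 hmin1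
  have h1 := hmin _ _ ho'
  have h2 := hmin1 _ _ hf
  have h3 : FF D X Z ≤ (∑ a, cc D (cl D (X a))) + ∑ a, cc D (cl D (Z a)) := by linarith
  unfold FF at h3
  refine ⟨X, Z, ho, ?_, ?_⟩
  · intro a
    by_contra h
    have h4 : ∑ a, cc D (cl D (X a)) < ∑ a, cc D (X a) :=
      Finset.sum_lt_sum (fun b _ => hG' _) ⟨a, Finset.mem_univ a, hG _ h⟩
    have h5 : ∑ a, cc D (cl D (Z a)) ≤ ∑ a, cc D (Z a) := Finset.sum_le_sum (fun b _ => hG' _)
    linarith
  · intro a
    by_contra h
    have h4 : ∑ a, cc D (cl D (X a)) ≤ ∑ a, cc D (X a) := Finset.sum_le_sum (fun b _ => hG' _)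
    have h5 : ∑ a, cc D (cl D (Z a)) < ∑ a, cc D (Z a) :=
      Finset.sum_lt_sum (fun b _ => hG' _) ⟨a, Finset.mem_univ a, hG _ h⟩
    linarith

/-- Orthogonal families of closed sets do not exist if every vertex has an out-neighbour. -/
theorem no_closed [Nonempty V] {D : OGraph V} (hout : ∀ a, ∃ b, D.arc a b) {X Z : V → Finset V}
    (ho : Orth D X Z) (hX : ∀ a, cl D (X a) = X a) (hZ : ∀ a, cl D (Z a) = Z a) : False := by
  classical
  set reach : V → Finset V := fun a =>
    Finset.univ.filter fun b => Relation.ReflTransGen D.arc a b with hreach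
  have mr : ∀ a b, b ∈ reach a ↔ Relation.ReflTransGen D.arc a b := by
    intro a b
    simp [hreach]
  obtain ⟨a, _, hmin⟩ := Finset.exists_min_image (Finset.univ : Finset V)
    (fun a => (reach a).card) Finset.univ_nonempty
  obtain ⟨b, hab⟩ := hout a
  have h1 : reach b ⊆ reach a := by
    intro x hx
    rw [mr] at hx ⊢
    exact Relation.ReflTransGen.head hab hx
  have h2 : reach b = reach a := Finset.eq_of_subset_of_card_le h1 (hmin b (Finset.mem_univ b))
  have h3 : Relation.ReflTransGen D.arc b a := by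
    rw [← mr, h2, mr]
  have hclos : ∀ (S : Finset V), cl D S = S → ∀ x y, Relation.ReflTransGen D.arc x y →
      x ∈ S → y ∈ S := by
    intro S hS x y hxy hx
    induction hxy with
    | refl => exact hx
    | tail _ h ih =>
      rw [← hS]
      exact mem_N.2 ⟨_, ih, Or.inr h⟩
  have h4 : b ∈ cl D (X a) := mem_N.2 ⟨a, ho.selfX a, Or.inr hab⟩
  have h5 : a ∈ cl D (Z b) := by
    rw [hZ b]
    exact hclos _ (hZ b) b a h3 (ho.selfZ b)
  have h6 := ho.orth a b h4 h5
  rw [h6] at hab
  exact D.loopless b hab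

/-- **Seymour's second neighbourhood conjecture**: every nonempty finite oriented graph has a
vertex whose second out-neighbourhood is at least as large as its first. -/
theorem seymour {V : Type u} [Fintype V] [Nonempty V] (D : OGraph V) :
    ∃ v, (N1 D v).card ≤ (N2 D v).card := by
  classical
  by_contra hcon
  push Not at hcon
  have hwf := (measure fun D' : OGraph V => ∑ v, (N1 D' v).card).wf
  obtain ⟨D', hD', hmin⟩ := hwf.has_min {D' : OGraph V | ∀ v, (N2 D' v).card < (N1 D' v).card}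
    ⟨D, hcon⟩
  have hmin' : ∀ D'' : OGraph V, (∀ v, (N2 D'' v).card < (N1 D'' v).card) →
      (∑ v, (N1 D' v).card) ≤ ∑ v, (N1 D'' v).card := by
    intro D'' h
    have := hmin D'' h
    exact not_lt.1 this
  have hD'' : ∀ v, (N2 D' v).card < (N1 D' v).card := hD'
  have hG : ∀ X : Finset V, cl D' X ≠ X → cc D' (cl D' X) < cc D' X := by
    intro X hX
    rw [cc_eq_sdiff, cc_eq_sdiff]
    exact_mod_cast S450.G D' hD'' hmin' X hX
  obtain ⟨X, Z, ho, h1, h2⟩ := closed_of_G hG
  refine no_closed ?_ ho h1 h2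
  intro a
  have h3 : (N1 D' a).Nonempty := Finset.card_pos.1 (lt_of_le_of_lt (Nat.zero_le _) (hD'' a))
  obtain ⟨b, hb⟩ := h3
  exact ⟨b, mem_N1.1 hb⟩

end Vale.Agent.P038.H213
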